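import Mathlib

/-!
# Injective holomorphic maps

An injective holomorphic map on an open set of `ℂ` is open, has a holomorphic inverse and a
nowhere vanishing derivative.
-/

namespace Crest.Agent.RMT

open Set Filter Topology Function

/-- An injective map on an open set is not locally constant. -/
theorem not_eventually_const {U : Set ℂ} {f : ℂ → ℂ} (hU : IsOpen U) (hi : InjOn f U)
    {z : ℂ} (hz : z ∈ U) : ¬ ∀ᶠ w in 𝓝 z, f w = f z := by
  intro h
  have h1 : ∀ᶠ w in 𝓝[≠] z, w = z := by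
    filter_upwards [nhdsWithin_le_nhds h, nhdsWithin_le_nhds (hU.mem_nhds hz)] with w hw hwU
    exact hi hwU hz hw
  have h2 : ∀ᶠ w in 𝓝[≠] z, w ≠ z := self_mem_nhdsWithin
  obtain ⟨w, hw1, hw2⟩ := (h1.and h2).exists
  exact hw2 hw1

theorem nhds_le_map {U : Set ℂ} {f : ℂ → ℂ} (hU : IsOpen U) (hf : DifferentiableOn ℂ f U)
    (hi : InjOn f U) {z : ℂ} (hz : z ∈ U) : 𝓝 (f z) ≤ map f (𝓝 z) :=
  ((hf.analyticOnNhd hU) z hz).eventually_constant_or_nhds_le_map_nhds.resolve_left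
    (not_eventually_const hU hi hz)

theorem isOpen_image {U : Set ℂ} {f : ℂ → ℂ} (hU : IsOpen U) (hf : DifferentiableOn ℂ f U)
    (hi : InjOn f U) : IsOpen (f '' U) := by
  rw [isOpen_iff_mem_nhds]
  rintro _ ⟨z, hz, rfl⟩
  exact nhds_le_map hU hf hi hz (image_mem_map (hU.mem_nhds hz))

/-- Images of open subsets are open. -/
theorem isOpen_image_of_subset {U V : Set ℂ} {f : ℂ → ℂ} (hf : DifferentiableOn ℂ f U)
    (hi : InjOn f U) (hV : IsOpen V) (hVU : V ⊆ U) : IsOpen (f '' V) :=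
  isOpen_image hV (hf.mono hVU) (hi.mono hVU)

theorem invFunOn_apply {U : Set ℂ} {f : ℂ → ℂ} (hi : InjOn f U) {z : ℂ} (hz : z ∈ U) :
    invFunOn f U (f z) = z :=
  hi.leftInvOn_invFunOn hz

theorem continuousAt_invFunOn {U : Set ℂ} {f : ℂ → ℂ} (hU : IsOpen U)
    (hf : DifferentiableOn ℂ f U) (hi : InjOn f U) {z : ℂ} (hz : z ∈ U) :
    ContinuousAt (invFunOn f U) (f z) := by
  rw [ContinuousAt, invFunOn_apply hi hz]
  have h2 : Tendsto (invFunOn f U) (map f (𝓝 z)) (𝓝 z) := by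
    rw [tendsto_map'_iff]
    refine tendsto_id.congr' ?_
    filter_upwards [hU.mem_nhds hz] with w hw
    simp [invFunOn_apply hi hw]
  exact h2.mono_left (nhds_le_map hU hf hi hz)

theorem continuousOn_invFunOn {U : Set ℂ} {f : ℂ → ℂ} (hU : IsOpen U)
    (hf : DifferentiableOn ℂ f U) (hi : InjOn f U) :
    ContinuousOn (invFunOn f U) (f '' U) := by
  rintro _ ⟨z, hz, rfl⟩
  exact (continuousAt_invFunOn hU hf hi hz).continuousWithinAt

theorem eventually_apply_invFunOn {U : Set ℂ} {f : ℂ → ℂ} (hU : IsOpen U)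
    (hf : DifferentiableOn ℂ f U) (hi : InjOn f U) {z : ℂ} (hz : z ∈ U) :
    ∀ᶠ y in 𝓝 (f z), f (invFunOn f U y) = y := by
  filter_upwards [(isOpen_image hU hf hi).mem_nhds (mem_image_of_mem f hz)] with y hy
  obtain ⟨w, hw, rfl⟩ := hy
  rw [invFunOn_apply hi hw]

theorem hasDerivAt_invFunOn_of_ne {U : Set ℂ} {f : ℂ → ℂ} (hU : IsOpen U)
    (hf : DifferentiableOn ℂ f U) (hi : InjOn f U) {z : ℂ} (hz : z ∈ U) (h0 : deriv f z ≠ 0) :
    HasDerivAt (invFunOn f U) (deriv f z)⁻¹ (f z) := by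
  refine HasDerivAt.of_local_left_inverse (continuousAt_invFunOn hU hf hi hz) ?_ h0
    (eventually_apply_invFunOn hU hf hi hz)
  rw [invFunOn_apply hi hz]
  exact (hf.differentiableAt (hU.mem_nhds hz)).hasDerivAt

theorem eventually_deriv_ne_zero {U : Set ℂ} {f : ℂ → ℂ} (hU : IsOpen U)
    (hf : DifferentiableOn ℂ f U) (hi : InjOn f U) {z : ℂ} (hz : z ∈ U) :
    ∀ᶠ w in 𝓝[≠] z, deriv f w ≠ 0 := by
  have ha : AnalyticAt ℂ f z := hf.analyticOnNhd hU z hz
  rcases ha.deriv.eventually_eq_zero_or_eventually_ne_zero with h | h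
  · exfalso
    apply not_eventually_const hU hi hz
    obtain ⟨r, hr, hball⟩ := Metric.eventually_nhds_iff_ball.1 (h.and (hU.mem_nhds hz))
    filter_upwards [Metric.ball_mem_nhds z hr] with w hw
    refine Metric.isOpen_ball.is_const_of_deriv_eq_zero (convex_ball z r).isPreconnected
      (hf.mono fun x hx => (hball x hx).2) (fun x hx => (hball x hx).1) hw (Metric.mem_ball_self hr)
  · exact h

theorem analyticAt_invFunOn {U : Set ℂ} {f : ℂ → ℂ} (hU : IsOpen U)
    (hf : DifferentiableOn ℂ f U) (hi : InjOn f U) {z : ℂ} (hz : z ∈ U) :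
    AnalyticAt ℂ (invFunOn f U) (f z) := by
  refine Complex.analyticAt_of_differentiable_on_punctured_nhds_of_continuousAt ?_
    (continuousAt_invFunOn hU hf hi hz)
  have h1 := eventually_nhdsWithin_iff.1 (eventually_deriv_ne_zero hU hf hi hz)
  have h2 : ∀ᶠ y in map f (𝓝 z), y ≠ f z → DifferentiableAt ℂ (invFunOn f U) y := by
    rw [eventually_map]
    filter_upwards [h1, hU.mem_nhds hz] with w hw hwU hne
    have hwz : w ≠ z := fun h => hne (by rw [h])
    exact (hasDerivAt_invFunOn_of_ne hU hf hi hwU (hw hwz)).differentiableAt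
  exact eventually_nhdsWithin_iff.2 (nhds_le_map hU hf hi hz h2)

theorem differentiableOn_invFunOn {U : Set ℂ} {f : ℂ → ℂ} (hU : IsOpen U)
    (hf : DifferentiableOn ℂ f U) (hi : InjOn f U) :
    DifferentiableOn ℂ (invFunOn f U) (f '' U) := by
  rintro _ ⟨z, hz, rfl⟩
  exact (analyticAt_invFunOn hU hf hi hz).differentiableAt.differentiableWithinAt

theorem deriv_ne_zero {U : Set ℂ} {f : ℂ → ℂ} (hU : IsOpen U)
    (hf : DifferentiableOn ℂ f U) (hi : InjOn f U) {z : ℂ} (hz : z ∈ U) : deriv f z ≠ 0 := by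
  intro h0
  have h1 : HasDerivAt f 0 z := h0 ▸ (hf.differentiableAt (hU.mem_nhds hz)).hasDerivAt
  have h2 := (analyticAt_invFunOn hU hf hi hz).differentiableAt.hasDerivAt
  have h3 := h2.comp z h1
  have h4 : HasDerivAt (invFunOn f U ∘ f) 1 z := by
    refine (hasDerivAt_id z).congr_of_eventuallyEq ?_
    filter_upwards [hU.mem_nhds hz] with w hw
    simp [invFunOn_apply hi hw]
  have := h3.unique h4
  simp at this

theorem hasDerivAt_invFunOn {U : Set ℂ} {f : ℂ → ℂ} (hU : IsOpen U)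
    (hf : DifferentiableOn ℂ f U) (hi : InjOn f U) {z : ℂ} (hz : z ∈ U) :
    HasDerivAt (invFunOn f U) (deriv f z)⁻¹ (f z) :=
  hasDerivAt_invFunOn_of_ne hU hf hi hz (deriv_ne_zero hU hf hi hz)

end Crest.Agent.RMT
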