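import Mathlib
import Crest.Agent.Lib.RMT.InjHolo

/-!
# The Riemann mapping theorem

Montel's theorem (ultrafilter form), Hurwitz's theorem for injective maps, and the extremal
problem for `‖f'(a)‖`.
-/

namespace Crest.Agent.RMT

open Set Filter Topology Function Metric

/-- Montel's theorem, ultrafilter form. -/
theorem montel {ι : Type*} {U : Set ℂ} (hU : IsOpen U) (φ : Ultrafilter ι) {F : ι → ℂ → ℂ}
    {R : ℝ} (hF : ∀ n, DifferentiableOn ℂ (F n) U) (hb : ∀ n, MapsTo (F n) U (closedBall 0 R)) :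
    ∃ f : ℂ → ℂ, TendstoLocallyUniformlyOn F f φ U := by
  have h1 : ∀ z, ∃ x, z ∈ U → Tendsto (fun n => F n z) φ (𝓝 x) := by
    intro z
    by_cases hz : z ∈ U
    · obtain ⟨x, -, hx⟩ := (isCompact_closedBall (0 : ℂ) R).ultrafilter_le_nhds
        (φ.map fun n => F n z) (by
          rw [le_principal_iff, Ultrafilter.coe_map, mem_map]
          exact Eventually.of_forall fun n => hb n hz)
      exact ⟨x, fun _ => hx⟩
    · exact ⟨0, fun h => absurd h hz⟩
  choose f hf using h1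
  refine ⟨f, Metric.tendstoLocallyUniformlyOn_iff.2 fun ε hε x hx => ?_⟩
  obtain ⟨r, hr, hrU⟩ := Metric.isOpen_iff.1 hU x hx
  obtain ⟨n₀⟩ : Nonempty ι := φ.neBot.nonempty
  have hR : 0 ≤ R := nonempty_closedBall.1 ⟨_, hb n₀ hx⟩
  have hlip : ∀ n, ∀ y ∈ ball x r, dist (F n y) (F n x) ≤ (2 * R) / r * dist y x := by
    intro n y hy
    refine Complex.dist_le_div_mul_dist_of_mapsTo_ball ((hF n).mono hrU) (fun w hw => ?_) hy
    have h1 := mem_closedBall.1 (hb n (hrU hw))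
    have h2 := mem_closedBall.1 (hb n hx)
    rw [mem_closedBall]
    linarith [dist_triangle_right (F n w) (F n x) 0]
  have hlip' : ∀ y ∈ ball x r, dist (f y) (f x) ≤ (2 * R) / r * dist y x := fun y hy =>
    le_of_tendsto ((hf y (hrU hy)).dist (hf x hx)) (Eventually.of_forall fun n => hlip n y hy)
  set L := (2 * R) / r with hL
  have hL0 : 0 ≤ L := by positivity
  have hδ : 0 < min r (ε / (4 * (L + 1))) := by positivity
  refine ⟨ball x (min r (ε / (4 * (L + 1)))), nhdsWithin_le_nhds (ball_mem_nhds x hδ), ?_⟩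
  filter_upwards [(Metric.tendsto_nhds.1 (hf x hx)) (ε / 4) (by positivity)] with n hn y hy
  have hy1 : y ∈ ball x r := ball_subset_ball (min_le_left _ _) hy
  have hy2 : dist y x < ε / (4 * (L + 1)) := (mem_ball.1 hy).trans_le (min_le_right _ _)
  have hy3 : L * dist y x ≤ ε / 4 := by
    rw [lt_div_iff₀ (by positivity)] at hy2
    nlinarith [dist_nonneg (x := y) (y := x)]
  have e1 := hlip n y hy1
  have e2 := hlip' y hy1
  calc dist (f y) (F n y) ≤ dist (f y) (f x) + dist (F n x) (f x) + dist (F n y) (F n x) := by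
        linarith [dist_triangle4 (f y) (f x) (F n x) (F n y), dist_comm (f x) (F n x),
          dist_comm (F n x) (F n y)]
    _ < ε := by linarith

/-- Hurwitz's theorem for injective maps. -/
theorem hurwitz_injOn {ι : Type*} {U : Set ℂ} (hU : IsOpen U) (hc : IsPreconnected U)
    {φ : Filter ι} [φ.NeBot] {F : ι → ℂ → ℂ} {f : ℂ → ℂ}
    (hF : ∀ᶠ n in φ, DifferentiableOn ℂ (F n) U) (hi : ∀ᶠ n in φ, InjOn (F n) U)
    (hlim : TendstoLocallyUniformlyOn F f φ U) (hnc : ¬ ∃ c, ∀ z ∈ U, f z = c) : InjOn f U := by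
  intro z₀ hz₀ w hw hzw
  by_contra hne
  have hf : DifferentiableOn ℂ f U := hlim.differentiableOn hF hU
  have han : AnalyticOnNhd ℂ f U := hf.analyticOnNhd hU
  have h1 : ∀ᶠ z in 𝓝[≠] z₀, f z ≠ f z₀ := by
    refine ((han z₀ hz₀).eventually_eq_or_eventually_ne analyticAt_const).resolve_left fun h => ?_
    exact hnc ⟨f z₀, han.eqOn_of_preconnected_of_eventuallyEq analyticOnNhd_const hc hz₀ h⟩
  have h2 : ∀ᶠ z in 𝓝 z₀, (z ≠ z₀ → f z ≠ f z₀) ∧ z ∈ U ∧ z ≠ w :=
    (eventually_nhdsWithin_iff.1 h1).and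
      (Eventually.and (hU.mem_nhds hz₀) (isOpen_ne.mem_nhds hne))
  obtain ⟨r, hr, hball⟩ := nhds_basis_closedBall.eventually_iff.1 h2
  have hsub : closedBall z₀ r ⊆ U := fun z hz => (hball hz).2.1
  have hsph : (sphere z₀ r).Nonempty := NormedSpace.sphere_nonempty.mpr hr.le
  have hcont : ContinuousOn (fun z => ‖f z - f z₀‖) (sphere z₀ r) :=
    ((hf.continuousOn.mono (sphere_subset_closedBall.trans hsub)).sub continuousOn_const).norm
  obtain ⟨x, hx, hmin⟩ := (isCompact_sphere z₀ r).exists_isMinOn hsph hcont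
  set δ := ‖f x - f z₀‖ with hδ
  have hδ0 : 0 < δ := norm_sub_pos_iff.2
    ((hball (sphere_subset_closedBall hx)).1 (ne_of_mem_sphere hx hr.ne'))
  have hunif := (tendstoLocallyUniformlyOn_iff_forall_isCompact hU).1 hlim (closedBall z₀ r) hsub
    (isCompact_closedBall _ _)
  have e1 := Metric.tendstoUniformlyOn_iff.1 hunif (δ / 8) (by positivity)
  have e2 := Metric.tendsto_nhds.1 (hlim.tendsto_at hw) (δ / 8) (by positivity)
  obtain ⟨n, hn1, hn2, hn3, hn4⟩ := (e1.and (e2.and (hF.and hi))).exists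
  have hdc : DiffContOnCl ℂ (F n) (ball z₀ r) :=
    ⟨hn3.mono (ball_subset_closedBall.trans hsub), by
      rw [closure_ball z₀ hr.ne']; exact hn3.continuousOn.mono hsub⟩
  have h0 := hn1 z₀ (mem_closedBall_self hr.le)
  have hlow : ∀ z ∈ sphere z₀ r, 3 * δ / 4 ≤ ‖F n z - F n z₀‖ := by
    intro z hz
    have a1 : δ ≤ ‖f z - f z₀‖ := hmin hz
    have a2 := hn1 z (sphere_subset_closedBall hz)
    rw [← dist_eq_norm] at a1 ⊢
    linarith [dist_triangle4 (f z) (F n z) (F n z₀) (f z₀), dist_comm (f z₀) (F n z₀)]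
  have hsubset := hdc.ball_subset_image_closedBall hr hlow
    (by simpa only [not_eventually] using not_eventually_const hU hn4 hz₀)
  have hmem : F n w ∈ ball (F n z₀) (3 * δ / 4 / 2) := by
    rw [mem_ball]
    have := dist_triangle (F n w) (f w) (F n z₀)
    rw [← hzw] at this hn2
    linarith
  obtain ⟨z, hz, hzeq⟩ := hsubset hmem
  exact (hball hz).2.2 (hn4 (hsub hz) hw hzeq)

/-- The disc automorphism `z ↦ (z - b) / (1 - conj b * z)`. -/
noncomputable def moeb (b z : ℂ) : ℂ := (z - b) / (1 - (starRingEnd ℂ) b * z)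

theorem moeb_den_ne {b z : ℂ} (hb : ‖b‖ < 1) (hz : ‖z‖ < 1) : 1 - (starRingEnd ℂ) b * z ≠ 0 := by
  intro h
  have h1 : (starRingEnd ℂ) b * z = 1 := by linear_combination -h
  have h2 : ‖b‖ * ‖z‖ = 1 := by
    have := congrArg norm h1
    simpa using this
  nlinarith [norm_nonneg b, norm_nonneg z]

theorem norm_moeb_lt {b z : ℂ} (hb : ‖b‖ < 1) (hz : ‖z‖ < 1) : ‖moeb b z‖ < 1 := by
  rw [moeb, norm_div, div_lt_one (norm_pos_iff.2 (moeb_den_ne hb hz))]
  have hb2 : b.re ^ 2 + b.im ^ 2 < 1 := by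
    have : ‖b‖ ^ 2 < 1 := by nlinarith [norm_nonneg b]
    rwa [Complex.sq_norm, Complex.normSq_apply, ← sq, ← sq] at this
  have hz2 : z.re ^ 2 + z.im ^ 2 < 1 := by
    have : ‖z‖ ^ 2 < 1 := by nlinarith [norm_nonneg z]
    rwa [Complex.sq_norm, Complex.normSq_apply, ← sq, ← sq] at this
  rw [← sq_lt_sq₀ (norm_nonneg _) (norm_nonneg _), Complex.sq_norm, Complex.sq_norm,
    Complex.normSq_apply, Complex.normSq_apply]
  simp only [Complex.sub_re, Complex.sub_im, Complex.one_re, Complex.one_im, Complex.mul_re,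
    Complex.mul_im, Complex.conj_re, Complex.conj_im]
  nlinarith [mul_pos (sub_pos.2 hb2) (sub_pos.2 hz2)]

theorem moeb_inj {b z w : ℂ} (hb : ‖b‖ < 1) (hz : ‖z‖ < 1) (hw : ‖w‖ < 1)
    (h : moeb b z = moeb b w) : z = w := by
  rw [moeb, moeb, div_eq_div_iff (moeb_den_ne hb hz) (moeb_den_ne hb hw)] at h
  have h1 : (z - w) * (1 - (starRingEnd ℂ) b * b) = 0 := by linear_combination h
  exact sub_eq_zero.1 ((mul_eq_zero.1 h1).resolve_right (moeb_den_ne hb hb))

theorem moeb_self (b : ℂ) : moeb b b = 0 := by simp [moeb]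

theorem hasDerivAt_moeb {b z : ℂ} (hb : ‖b‖ < 1) (hz : ‖z‖ < 1) :
    HasDerivAt (moeb b) ((1 - (starRingEnd ℂ) b * b) / (1 - (starRingEnd ℂ) b * z) ^ 2) z := by
  have h1 : HasDerivAt (fun z : ℂ => z - b) 1 z := (hasDerivAt_id z).sub_const b
  have h2 : HasDerivAt (fun z : ℂ => 1 - (starRingEnd ℂ) b * z) (-(starRingEnd ℂ) b) z := by
    simpa using ((hasDerivAt_id z).const_mul ((starRingEnd ℂ) b)).const_sub 1
  have h3 := h1.fun_div h2 (moeb_den_ne hb hz)
  have h4 : 1 - (starRingEnd ℂ) b * b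
      = 1 * (1 - (starRingEnd ℂ) b * z) - (z - b) * -(starRingEnd ℂ) b := by ring
  rw [h4]
  exact h3

theorem norm_one_sub_conj_mul {b : ℂ} (hb : ‖b‖ < 1) :
    ‖1 - (starRingEnd ℂ) b * b‖ = 1 - ‖b‖ ^ 2 := by
  have h : 1 - (starRingEnd ℂ) b * b = ((1 - ‖b‖ ^ 2 : ℝ) : ℂ) := by
    rw [Complex.conj_mul']
    push_cast
    ring
  rw [h, Complex.norm_real, Real.norm_of_nonneg]
  nlinarith [norm_nonneg b]

/-- The normalised family of the extremal problem. -/
def Fam (U : Set ℂ) (a : ℂ) : Set (ℂ → ℂ) :=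
  {f | DifferentiableOn ℂ f U ∧ InjOn f U ∧ MapsTo f U (ball 0 1) ∧ f a = 0}

/-- A member of the family missing a point of the disc is not extremal. -/
theorem improve {U : Set ℂ} (hU : IsOpen U) (hsc : IsSimplyConnected U) {a : ℂ} (ha : a ∈ U)
    {f : ℂ → ℂ} (hf : f ∈ Fam U a) {b : ℂ} (hb : ‖b‖ < 1) (hbf : b ∉ f '' U) :
    ∃ g ∈ Fam U a, ‖deriv f a‖ < ‖deriv g a‖ := by
  obtain ⟨hfd, hfi, hfm, hfa⟩ := hf
  have hf1 : ∀ z ∈ U, ‖f z‖ < 1 := fun z hz => mem_ball_zero_iff.1 (hfm hz)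
  set u : ℂ → ℂ := fun z => moeb b (f z) with hu
  have hud : ∀ z ∈ U, HasDerivAt u
      ((1 - (starRingEnd ℂ) b * b) / (1 - (starRingEnd ℂ) b * f z) ^ 2 * deriv f z) z :=
    fun z hz => (hasDerivAt_moeb hb (hf1 z hz)).comp z
      (hfd.differentiableAt (hU.mem_nhds hz)).hasDerivAt
  have hu0 : ∀ z ∈ U, u z ≠ 0 := by
    intro z hz h0
    refine hbf ⟨z, hz, moeb_inj hb (hf1 z hz) hb ?_⟩
    rw [moeb_self]; exact h0
  obtain ⟨h, hhc, hh⟩ := Complex.exists_continuousOn_pow_eq hsc hU (g := u)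
    (fun z hz => (hud z hz).continuousAt.continuousWithinAt)
    (by rintro ⟨z, hz, h0⟩; exact hu0 z hz h0) two_ne_zero
  have hh0 : ∀ z ∈ U, h z ≠ 0 := by
    intro z hz h0
    apply hu0 z hz
    rw [← hh z, h0]; simp
  have hh1 : ∀ z ∈ U, ‖h z‖ < 1 := by
    intro z hz
    have h1 : ‖h z‖ ^ 2 < 1 := by
      rw [← norm_pow, hh z]; exact norm_moeb_lt hb (hf1 z hz)
    nlinarith [norm_nonneg (h z)]
  have hhd : ∀ z ∈ U, HasDerivAt h
      ((1 - (starRingEnd ℂ) b * b) / (1 - (starRingEnd ℂ) b * f z) ^ 2 * deriv f z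
        / (2 * h z)) z := by
    intro z hz
    refine HasDerivAt.of_comp_left (f := fun w : ℂ => w ^ 2)
      (hhc.continuousAt (hU.mem_nhds hz)) ?_ (hud z hz) ?_ (Eventually.of_forall fun w => hh w)
    · simpa using hasDerivAt_pow 2 (h z)
    · exact mul_ne_zero two_ne_zero (hh0 z hz)
  have hgd : ∀ z ∈ U, HasDerivAt (fun z => moeb (h a) (h z))
      ((1 - (starRingEnd ℂ) (h a) * (h a)) / (1 - (starRingEnd ℂ) (h a) * h z) ^ 2 *
      ((1 - (starRingEnd ℂ) b * b) / (1 - (starRingEnd ℂ) b * f z) ^ 2 * deriv f z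
        / (2 * h z))) z :=
    fun z hz => (hasDerivAt_moeb (hh1 a ha) (hh1 z hz)).comp z (hhd z hz)
  refine ⟨fun z => moeb (h a) (h z), ⟨fun z hz => (hgd z hz).differentiableAt.differentiableWithinAt,
    fun z hz w hw hzw => ?_, fun z hz => mem_ball_zero_iff.2 (norm_moeb_lt (hh1 a ha) (hh1 z hz)),
    moeb_self _⟩, ?_⟩
  · have h1 : h z = h w := moeb_inj (hh1 a ha) (hh1 z hz) (hh1 w hw) hzw
    have h2 : u z = u w := by rw [← hh z, ← hh w, h1]
    exact hfi hz hw (moeb_inj hb (hf1 z hz) (hf1 w hw) h2)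
  · rw [(hgd a ha).deriv, hfa]
    have hs : ‖h a‖ ^ 2 = ‖b‖ := by
      rw [← norm_pow, hh a]
      simp [hu, moeb, hfa]
    have hs0 : 0 < ‖h a‖ := norm_pos_iff.2 (hh0 a ha)
    have hs1 := hh1 a ha
    have hd0 : 0 < ‖deriv f a‖ := norm_pos_iff.2 (deriv_ne_zero hU hfd hfi ha)
    simp only [norm_mul, norm_div, norm_pow, norm_one_sub_conj_mul hs1, norm_one_sub_conj_mul hb,
      mul_zero, sub_zero, norm_one, Complex.norm_ofNat, ← hs]
    set s := ‖h a‖
    set d := ‖deriv f a‖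
    have h1 : 0 < 1 - s ^ 2 := by nlinarith
    have h2 : (1 - s ^ 2) / (1 - s ^ 2) ^ 2 * ((1 - (s ^ 2) ^ 2) / 1 ^ 2 * d / (2 * s))
        = (1 + s ^ 2) * d / (2 * s) := by
      field_simp
      ring
    rw [h2, lt_div_iff₀ (by positivity)]
    nlinarith [mul_pos hd0 (mul_pos (sub_pos.2 hs1) (sub_pos.2 hs1))]

/-- Riemann mapping theorem, given one injective holomorphic map into the disc. -/
theorem riemann_mapping_of_nonempty {U : Set ℂ} (hU : IsOpen U) (hsc : IsSimplyConnected U)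
    {a : ℂ} (ha : a ∈ U) (hne : (Fam U a).Nonempty) :
    ∃ f : ℂ → ℂ, DifferentiableOn ℂ f U ∧ BijOn f U (ball 0 1) ∧ f a = 0 := by
  have hc : IsPreconnected U := hsc.isPathConnected.isConnected.isPreconnected
  set S : Set ℝ := (fun f => ‖deriv f a‖) '' Fam U a with hS
  have hSne : S.Nonempty := hne.image _
  obtain ⟨r, hr, hrU⟩ := Metric.isOpen_iff.1 hU a ha
  have hSb : BddAbove S := by
    refine ⟨1 / r, ?_⟩
    rintro _ ⟨f, ⟨hfd, -, hfm, hfa⟩, rfl⟩
    refine Complex.norm_deriv_le_div_of_mapsTo_ball (hfd.mono hrU) (fun z hz => ?_) hr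
    rw [hfa]
    exact ball_subset_closedBall (hfm (hrU hz))
  have hM : 0 < sSup S := by
    obtain ⟨f, hf⟩ := hne
    exact (norm_pos_iff.2 (deriv_ne_zero hU hf.1 hf.2.1 ha)).trans_le
      (le_csSup hSb (mem_image_of_mem _ hf))
  obtain ⟨v, -, hv, hvS⟩ := exists_seq_tendsto_sSup hSne hSb
  choose F hF hFv using hvS
  obtain ⟨f, hf⟩ := montel hU (Ultrafilter.of (atTop : Filter ℕ)) (R := 1) (fun n => (hF n).1)
    (fun n z hz => ball_subset_closedBall ((hF n).2.2.1 hz))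
  have hFd : ∀ᶠ n in (Ultrafilter.of (atTop : Filter ℕ) : Filter ℕ),
      DifferentiableOn ℂ (F n) U := Eventually.of_forall fun n => (hF n).1
  have hfd : DifferentiableOn ℂ f U := hf.differentiableOn hFd hU
  have hfa : f a = 0 := by
    have h1 := hf.tendsto_at ha
    simp only [(hF _).2.2.2] at h1
    exact (tendsto_nhds_unique tendsto_const_nhds h1).symm
  have hder : ‖deriv f a‖ = sSup S := by
    have h1 := ((hf.deriv hFd hU).tendsto_at ha).norm
    have h2 : Tendsto v (Ultrafilter.of (atTop : Filter ℕ)) (𝓝 (sSup S)) :=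
      hv.mono_left (Ultrafilter.of_le _)
    refine tendsto_nhds_unique h1 (h2.congr fun n => ?_)
    exact (hFv n).symm
  have hnc : ¬ ∃ c, ∀ z ∈ U, f z = c := by
    rintro ⟨c, hc⟩
    have h1 : f =ᶠ[𝓝 a] fun _ => c := by
      filter_upwards [hU.mem_nhds ha] with z hz using hc z hz
    rw [h1.deriv_eq] at hder
    simp at hder
    linarith
  have hfi : InjOn f U :=
    hurwitz_injOn hU hc hFd (Eventually.of_forall fun n => (hF n).2.1) hf hnc
  have hfm : MapsTo f U (ball 0 1) := by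
    have h1 : f '' U ⊆ closedBall 0 1 := by
      rintro _ ⟨z, hz, rfl⟩
      exact isClosed_closedBall.mem_of_tendsto (hf.tendsto_at hz)
        (Eventually.of_forall fun n => ball_subset_closedBall ((hF n).2.2.1 hz))
    have h2 := interior_maximal h1 (isOpen_image hU hfd hfi)
    rw [interior_closedBall _ one_ne_zero] at h2
    exact fun z hz => h2 (mem_image_of_mem f hz)
  refine ⟨f, hfd, ⟨hfm, hfi, fun b hb => ?_⟩, hfa⟩
  by_contra hbf
  obtain ⟨g, hg, hlt⟩ := improve hU hsc ha ⟨hfd, hfi, hfm, hfa⟩ (mem_ball_zero_iff.1 hb) hbf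
  exact absurd (le_csSup hSb (mem_image_of_mem _ hg)) (not_le.2 (hder ▸ hlt))

/-- Normalising an injective holomorphic map into the disc. -/
theorem fam_nonempty_of_mapsTo {U : Set ℂ} (hU : IsOpen U) {a : ℂ} (ha : a ∈ U) {f : ℂ → ℂ}
    (hfd : DifferentiableOn ℂ f U) (hfi : InjOn f U) (hfm : MapsTo f U (ball 0 1)) :
    (Fam U a).Nonempty := by
  have hf1 : ∀ z ∈ U, ‖f z‖ < 1 := fun z hz => mem_ball_zero_iff.1 (hfm hz)
  refine ⟨fun z => moeb (f a) (f z), fun z hz => ?_, fun z hz w hw h => ?_, fun z hz => ?_,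
    moeb_self _⟩
  · exact ((hasDerivAt_moeb (hf1 a ha) (hf1 z hz)).comp z
      (hfd.differentiableAt (hU.mem_nhds hz)).hasDerivAt).differentiableAt.differentiableWithinAt
  · exact hfi hz hw (moeb_inj (hf1 a ha) (hf1 z hz) (hf1 w hw) h)
  · exact mem_ball_zero_iff.2 (norm_moeb_lt (hf1 a ha) (hf1 z hz))

/-- **Riemann mapping theorem**, bounded domains. -/
theorem riemann_mapping {U : Set ℂ} (hU : IsOpen U) (hsc : IsSimplyConnected U)
    (hb : Bornology.IsBounded U) {a : ℂ} (ha : a ∈ U) :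
    ∃ f : ℂ → ℂ, DifferentiableOn ℂ f U ∧ Set.BijOn f U (Metric.ball 0 1) ∧ f a = 0 := by
  obtain ⟨R, hR, hUR⟩ := hb.subset_ball_lt 0 0
  refine riemann_mapping_of_nonempty hU hsc ha
    (fam_nonempty_of_mapsTo hU ha (f := fun z => z / R) (by fun_prop) (fun z _ w _ h => ?_)
      fun z hz => ?_)
  · have hR' : (R : ℂ) ≠ 0 := by exact_mod_cast hR.ne'
    exact (div_left_inj' hR').1 h
  · have := mem_ball_zero_iff.1 (hUR hz)
    rw [mem_ball_zero_iff, norm_div, Complex.norm_real, Real.norm_of_nonneg hR.le, div_lt_one hR]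
    exact this

/-- **Riemann mapping theorem**. -/
theorem riemann_mapping' {U : Set ℂ} (hU : IsOpen U) (hsc : IsSimplyConnected U)
    (hne : U ≠ univ) {a : ℂ} (ha : a ∈ U) :
    ∃ f : ℂ → ℂ, DifferentiableOn ℂ f U ∧ Set.BijOn f U (Metric.ball 0 1) ∧ f a = 0 := by
  obtain ⟨c, hc⟩ := (ne_univ_iff_exists_notMem U).1 hne
  obtain ⟨h, hhc, hh⟩ := Complex.exists_continuousOn_pow_eq hsc hU (g := fun z => z - c)
    (by fun_prop) (by
      rintro ⟨z, hz, h0⟩
      exact hc (sub_eq_zero.1 h0 ▸ hz)) two_ne_zero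
  have hh0 : ∀ z ∈ U, h z ≠ 0 := by
    intro z hz h0
    have h1 := hh z
    rw [h0] at h1
    have h2 : z = c := by linear_combination -h1
    exact hc (h2 ▸ hz)
  have hhd : DifferentiableOn ℂ h U := by
    intro z hz
    refine (HasDerivAt.of_comp_left (f := fun w : ℂ => w ^ 2) (f' := 2 * h z)
      (hhc.continuousAt (hU.mem_nhds hz)) ?_ ((hasDerivAt_id z).sub_const c) ?_
      (Eventually.of_forall fun w => hh w)).differentiableAt.differentiableWithinAt
    · simpa using hasDerivAt_pow 2 (h z)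
    · exact mul_ne_zero two_ne_zero (hh0 z hz)
  have hhi : InjOn h U := by
    intro z _ w _ hzw
    have h1 := hh z
    rw [hzw, hh w] at h1
    linear_combination -h1
  obtain ⟨ε, hε, hball⟩ := Metric.isOpen_iff.1 (isOpen_image hU hhd hhi) (h a)
    (mem_image_of_mem h ha)
  have hfar : ∀ z ∈ U, ε ≤ ‖h z + h a‖ := by
    intro z hz
    by_contra hlt
    have h1 : -h z ∈ ball (h a) ε := by
      rw [mem_ball, dist_eq_norm, ← norm_neg]
      have e : -(-h z - h a) = h z + h a := by ring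
      rw [e]
      exact not_le.1 hlt
    obtain ⟨w, hw, hwz⟩ := hball h1
    have h2 : w = z := by
      have e1 := hh w
      have e2 := hh z
      rw [hwz] at e1
      linear_combination e2 - e1
    rw [h2] at hwz
    exact hh0 z hz (by linear_combination hwz / 2)
  have hne0 : ∀ z ∈ U, h z + h a ≠ 0 := fun z hz => norm_pos_iff.1 (hε.trans_le (hfar z hz))
  have hε' : ((ε / 2 : ℝ) : ℂ) ≠ 0 := by exact_mod_cast (half_pos hε).ne'
  refine riemann_mapping_of_nonempty hU hsc ha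
    (fam_nonempty_of_mapsTo hU ha (f := fun z => ((ε / 2 : ℝ) : ℂ) / (h z + h a))
      ((differentiableOn_const _).div (hhd.add_const _) hne0) (fun z hz w hw hzw => ?_)
      fun z hz => ?_)
  · rw [div_eq_div_iff (hne0 z hz) (hne0 w hw)] at hzw
    have := mul_left_cancel₀ hε' hzw
    exact hhi hz hw (by linear_combination -this)
  · rw [mem_ball_zero_iff, norm_div, Complex.norm_real, Real.norm_of_nonneg (half_pos hε).le,
      div_lt_one (hε.trans_le (hfar z hz))]
    linarith [hfar z hz]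

end Crest.Agent.RMT
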